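import Vale.Agent.P132.Final

/-!
# P132: Connes' bicentralizer conjecture
-/

namespace Vale.Agent.Results.P132.BicentralizerTrivial

universe u

/-- For every factor of type III₁ on a separable Hilbert space and every faithful normal state, the
bicentralizer consists of the scalars. -/
theorem result {H : Type u} [NormedAddCommGroup H] [InnerProductSpace ℂ H] [CompleteSpace H]
    [TopologicalSpace.SeparableSpace H] (M : VonNeumannAlgebra H) (hM : P132.IsTypeIII1 M)
    (φ : (H →L[ℂ] H) → ℂ) (hφ : P132.IsNormalState M φ) (hf : P132.IsFaithful M φ) :
    P132.bicentralizer M φ = P132.scalars H :=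
  P132.bicentralizer_trivial hM hφ hf

end Vale.Agent.Results.P132.BicentralizerTrivial
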